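import Vale.Agent.P011LZ.Defs
import Vale.Agent.P092GV.StG

/-!
The Margulis-Platonov conjecture for absolutely almost simple simply connected groups. Only
definitions.
-/

namespace Vale.Agent.P011I

open Vale.Agent.P011L Vale.Agent.P011LZ Vale.Agent.P092GV

/-- The value of the matrix `P` of polynomials at the matrix `g` over the algebra `A`. -/
noncomputable def ap {R A m n : Type} [CommRing R] [CommRing A] [Algebra R A]
    (P : Matrix n n (MvPolynomial (m × m) R)) (g : Matrix m m A) : Matrix n n A :=
  P.map (MvPolynomial.aeval fun e => g e.1 e.2)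

/-- `g` is a point of the algebraic group `H` over the algebra `A`. -/
def Pt {Ω A : Type} [Field Ω] [CommRing A] [Algebra Ω A] {m : ℕ} (H : Subgroup (GL (Fin m) Ω))
    (g : GL (Fin m) A) : Prop :=
  ∀ p ∈ vanish Ω H, MvPolynomial.aeval (fun e => g.1 e.1 e.2) p = 0

/-- `π` is a central isogeny from a connected algebraic group `H` onto `G`, given by the
polynomials `P`: it is onto with a finite kernel, and for every commutative algebra `A` the kernel
on the `A`-points is central. -/
structure CIso {Ω : Type} [Field Ω] {m n : ℕ} {H : Subgroup (GL (Fin m) Ω)}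
    {G : Subgroup (GL (Fin n) Ω)} (π : H →* G)
    (P : Matrix (Fin n) (Fin n) (MvPolynomial (Fin m × Fin m) Ω)) : Prop where
  closed : ZClosed H
  connected : (vanish Ω H).IsPrime
  pol : ∀ h : H, (π h).1.1 = ap P h.1.1
  onto : Function.Surjective π
  fin : Finite π.ker
  central : ∀ (A : Type) [CommRing A] [Algebra Ω A] (g h : GL (Fin m) A), Pt H g → Pt H h →
    ap P g.1 = 1 → g * h = h * g

/-- `G` is simply connected: every central isogeny onto `G` is an isomorphism of algebraic
groups. -/
def SConn {Ω : Type} [Field Ω] {n : ℕ} (G : Subgroup (GL (Fin n) Ω)) : Prop :=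
  ∀ (m : ℕ) (H : Subgroup (GL (Fin m) Ω)) (π : H →* G) P, CIso π P →
    ∃ φ : H ≃* G, (∀ h, φ h = π h) ∧ Pol φ.symm

/-- The target. -/
def QI : Prop :=
  ∀ (k Ω : Type) [Field k] [Field Ω] [Algebra k Ω] [IsAlgClosure k Ω], Glob k →
    ∀ (n : ℕ) (G : Subgroup (GL (Fin n) Ω)), AbsSimple k G → SConn G → MPG k G

end Vale.Agent.P011I
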