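import Vale.Agent.P011I.Defs
import Vale.Agent.P011IT.Trf
import Vale.Agent.P011IS.Glob
import Vale.Agent.P011UH.Pol
import Vale.Agent.P092AL.Asm
import Vale.Agent.P092A1.Nice
import Vale.Agent.P092TO.B1

/-!
Recognition of the absolutely almost simple simply connected groups: the interfaces.
-/

set_option autoImplicit false
set_option linter.all false

namespace Vale.Agent.P011I

open Matrix Vale.Agent.P011L Vale.Agent.P011LZ Vale.Agent.P183CH Vale.Agent.P183CH.Chev
  Vale.Agent.P011U Vale.Agent.P092AG Vale.Agent.P092TO Vale.Agent.P092A2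

section dict

variable {k K : Type} [Field k] [Field K] [Algebra k K] {n : ℕ} {H : Subgroup (GL (Fin n) K)}

theorem mem_vanish {p : Pl n k} : p ∈ P092GV.vanish k H ↔
    MvPolynomial.map (algebraMap k K) p ∈ van (H : Set (GL (Fin n) K)) := by
  have e : ∀ x : Fin n × Fin n → K,
      MvPolynomial.eval x (MvPolynomial.map (algebraMap k K) p) = MvPolynomial.aeval x p :=
    fun x => MvPolynomial.eval_map _ _ _
  refine ⟨fun h g hg => (e _).trans (h _ ⟨g, hg, fun _ _ => rfl⟩), ?_⟩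
  rintro h x ⟨g, hg, a⟩
  obtain rfl : x = fun ij => g.1 ij.1 ij.2 := funext fun ij => a ij.1 ij.2
  exact (e _).symm.trans (h g hg)

theorem vanish_eq : P092GV.vanish K H = van (H : Set (GL (Fin n) K)) := by
  ext p
  rw [mem_vanish, Algebra.algebraMap_self, MvPolynomial.map_id]

theorem zcl_iff : P092GV.ZClosed H ↔ ZCl (H : Set (GL (Fin n) K)) := by
  unfold P092GV.ZClosed
  rw [vanish_eq]
  rfl

theorem abs_of (h : P092GV.AbsSimple k H) : AbsSimple k H := by
  refine ⟨zcl_iff.1 h.closed, vanish_eq (H := H) ▸ h.connected, ?_, h.noncomm,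
    fun N a b c => (h.simple N a (zcl_iff.2 b) c).imp_right fun d => d⟩
  refine (vanish_eq.symm.trans h.defined).le.trans (Ideal.span_mono ?_)
  rintro _ ⟨p, hp, rfl⟩
  exact ⟨mem_vanish.1 hp, p, rfl⟩

end dict

/-- Pinning data: weights and the polynomial matrices of the simple root subgroups. -/
structure Pn (F : Type) [Field F] (n : ℕ) (R : RS) where
  μ : Fin R.r → Fin n → ℤ
  X : Fin R.r → Mt n (Polynomial F)
  Y : Fin R.r → Mt n (Polynomial F)

namespace Pn

variable {F : Type} [Field F] {n : ℕ} {R : RS} (S : Pn F n R)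

/-- the positive simple root elements -/
noncomputable def x (i : Fin R.r) (t : F) : Mt n F := (S.X i).map (Polynomial.eval t)

/-- the negative simple root elements -/
noncomputable def y (i : Fin R.r) (t : F) : Mt n F := (S.Y i).map (Polynomial.eval t)

/-- the weight of a basis vector -/
def wt (a : Fin n) : R.Q := fun i => S.μ i a

/-- the group generated by the simple root elements -/
def Gp : Subgroup (GL (Fin n) F) := Subgroup.closure {g | ∃ i t, g.1 = S.x i t ∨ g.1 = S.y i t}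

/-- the axioms -/
structure Ok : Prop where
  root : R.Ok
  x0 : ∀ i, S.x i 0 = 1
  y0 : ∀ i, S.y i 0 = 1
  xa : ∀ i s t, S.x i (s + t) = S.x i s * S.x i t
  ya : ∀ i s t, S.y i (s + t) = S.y i s * S.y i t
  dx : ∀ i a b (m : ℕ), (S.X i a b).coeff m ≠ 0 → S.wt a = S.wt b + m • R.A i
  dy : ∀ i a b (m : ℕ), (S.Y i a b).coeff m ≠ 0 → S.wt a = S.wt b - m • R.A i
  x1 : ∀ i, ∃ a b, (S.X i a b).coeff 1 ≠ 0
  y1 : ∀ i, ∃ a b, (S.Y i a b).coeff 1 ≠ 0
  xy : ∀ i (t s : F) (u : Fˣ), (u : F) = 1 + t * s →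
    S.x i t * S.y i s = S.y i (s / u) * (dgU (S.μ i) u).1 * S.x i (t / u)
  cm : ∀ i j, i ≠ j → ∀ t s, S.x i t * S.y j s = S.y j s * S.x i t
  det : ∀ g ∈ S.Gp, g.1.det = 1
  fd : ∀ N : Subgroup (GL (Fin n) F), N ≤ S.Gp → (∀ g ∈ S.Gp, ∀ z ∈ N, g * z * g⁻¹ ∈ N) →
    (N : Set (GL (Fin n) F)).Finite ∨
      van (N : Set (GL (Fin n) F)) ≤ van (S.Gp : Set (GL (Fin n) F))
  cen : ∀ g ∈ S.Gp, (∀ a b, g.1 a b ≠ 0 → S.wt a = S.wt b) → ∀ a b, a ≠ b → g.1 a b = 0

/-- `ψ` maps the simple root elements of `D` to those of `S` -/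
def Pin {D : Chev} (ε : Fin D.r ≃ Fin R.r) (ψ : D.grp F →* GL (Fin n) F) : Prop :=
  ∀ (g : D.grp F) i t, (g.1.1 = D.x i t → (ψ g).1 = S.x (ε i) t) ∧
    (g.1.1 = D.y i t → (ψ g).1 = S.y (ε i) t)

end Pn

/-- the weights are in the same class modulo the root lattice -/
def Bl (D : Chev) (a b : Fin D.n) : Prop := ∃ γ : D.Q, D.wt a = D.wt b + γ ᵥ* D.A

/-- a label of the class -/
noncomputable def lb (D : Chev) (a : Fin D.n) : Fin D.n := @Classical.epsilon _ ⟨a⟩ (Bl D a)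

theorem Bl.refl (D : Chev) (a : Fin D.n) : Bl D a a := ⟨0, by simp⟩

theorem Bl.symm {D : Chev} {a b : Fin D.n} : Bl D a b → Bl D b a := fun ⟨γ, h⟩ =>
  ⟨-γ, by rw [h, neg_vecMul]; abel⟩

theorem Bl.trans {D : Chev} {a b c : Fin D.n} : Bl D a b → Bl D b c → Bl D a c :=
  fun ⟨γ, h⟩ ⟨δ, h'⟩ => ⟨γ + δ, by rw [h, h', add_vecMul]; abel⟩

theorem lb_eq {D : Chev} {a b : Fin D.n} : lb D a = lb D b ↔ Bl D a b := by
  have e : ∀ a, Bl D a (lb D a) := fun a => Classical.epsilon_spec ⟨a, Bl.refl D a⟩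
  refine ⟨fun h => (e a).trans (h ▸ (e b).symm), fun h => ?_⟩
  rw [lb, lb, show Bl D a = Bl D b from funext fun c => propext ⟨h.symm.trans, h.trans⟩]

/-- the matrix units of the blocks -/
abbrev JJ (D : Chev) : Type := {p : Fin D.n × Fin D.n // lb D p.1 = lb D p.2}

/-- conjugation on the block diagonal matrices -/
def Adm (D : Chev) {A : Type} [CommRing A] (g : D.Mat A) : Matrix (JJ D) (JJ D) A :=
  of fun p q => g p.1.1 q.1.1 * g.adjugate q.1.2 p.1.2

/-- The certificate over the field `F`: a polynomial homomorphism with a Zariski dense image in the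
group with the ideal `I`, and a polynomial left inverse modulo the centre. -/
def C0 {F : Type} [Field F] {n : ℕ} (I : Ideal (Pl n F)) (D : Chev) : Prop :=
  ∃ (ψ : D.grp F →* GL (Fin n) F) (P : Mt n (Pl D.n F)) (W : Matrix (JJ D) (JJ D) (Pl n F)),
    (∀ g, (ψ g).1 = ap P g.1.1) ∧ (∀ g, ap W (ψ g).1 = Adm D g.1.1) ∧
    van (ψ.range : Set (GL (Fin n) F)) = I

/-- The certificate over `K` for the group `G` of the points over `Ω`. -/
def C1 (K : Type) {Ω : Type} [Field K] [Field Ω] [Algebra K Ω] {n : ℕ}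
    (G : Subgroup (GL (Fin n) Ω)) (D : Chev) : Prop :=
  ∃ (ψ : D.grp Ω →* G) (π : G →* Matrix (JJ D) (JJ D) Ω) (P : Mt n (Pl D.n K))
    (W : Matrix (JJ D) (JJ D) (Pl n K)),
    (∀ g, (ψ g).1.1 = ap P g.1.1) ∧ (∀ g, π g = ap W g.1.1) ∧ (∀ g, π (ψ g) = Adm D g.1.1) ∧
    ∀ (q : MvPolynomial (JJ D × JJ D) Ω),
      (∀ g : D.grp Ω, MvPolynomial.eval (fun e => Adm D g.1.1 e.1 e.2) q = 0) →
      ∀ g, MvPolynomial.eval (fun e => π g e.1 e.2) q = 0

/-- a local field over the global field whose separable extensions are separable over `k` -/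
def LOC : Prop :=
  ∀ (k : Type) [Field k], Glob k → ∃ (F : Type) (_ : NontriviallyNormedField F)
    (_ : ProperSpace F) (_ : IsUltrametricDist F) (_ : Algebra k F),
    ∀ (L : Type) [Field L] [Algebra F L] [Algebra k L] [IsScalarTower k F L]
      [Algebra.IsSeparable F L], P011IS.Sepx k L

/-- the norm on the algebraic closure -/
def NRM : Prop :=
  ∀ (F : Type) [NontriviallyNormedField F] [ProperSpace F] [IsUltrametricDist F],
    ∃ (Ω : Type) (_ : NontriviallyNormedField Ω) (_ : NormedAlgebra F Ω),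
      IsAlgClosed Ω ∧ Algebra.IsAlgebraic F Ω ∧ IsUltrametricDist Ω

/-- finite extensions of a local field inside the algebraic closure -/
def EXT : Prop :=
  ∀ (F Ω : Type) [NontriviallyNormedField F] [ProperSpace F] [IsUltrametricDist F]
    [NontriviallyNormedField Ω] [NormedAlgebra F Ω] [IsUltrametricDist Ω] [Algebra.IsAlgebraic F Ω]
    (s : Finset Ω), ∃ (L : Type) (_ : NontriviallyNormedField L) (_ : ProperSpace L)
    (_ : IsUltrametricDist L) (_ : NormedAlgebra F L) (_ : NormedAlgebra L Ω)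
    (_ : IsScalarTower F L Ω), Algebra.IsAlgebraic L Ω ∧ FiniteDimensional F L ∧
      (∀ x ∈ s, ∃ z : L, algebraMap L Ω z = x) ∧
      ((∀ x ∈ s, IsSeparable F x) → Algebra.IsSeparable F L)

/-- extension of the field of definition, conjugation, and the ideal of the points -/
def UPF : Prop :=
  (∀ (k L Ω : Type) [Field k] [Field L] [Field Ω] [Algebra k L] [Algebra L Ω] [Algebra k Ω]
    [IsScalarTower k L Ω] (n : ℕ) (G : Subgroup (GL (Fin n) Ω)), AbsSimple k G →
    AbsSimple L G ∧ (∀ c : GL (Fin n) L, AbsSimple L (cj (io L Ω n c) G) ∧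
      pts L (cj (io L Ω n c) G) = cj c (pts L G)) ∧
    P092GV.vanish L G = (P092GV.vanish k G).map (MvPolynomial.map (algebraMap k L))) ∧
  ∀ (F : Type) [Field F] (n : ℕ) (G : Subgroup (GL (Fin n) F)) (c : GL (Fin n) F) (D : Chev),
    C0 (van (cj c G : Set (GL (Fin n) F))) D → C0 (van (G : Set (GL (Fin n) F))) D

/-- the structure theory over every local field of definition, in the same coordinates -/
def RED : Prop :=
  ∀ (L Ω : Type) [NontriviallyNormedField L] [ProperSpace L] [NontriviallyNormedField Ω]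
    [NormedAlgebra L Ω] [IsAlgClosed Ω] (n : ℕ) (G : Subgroup (GL (Fin n) Ω)), AbsSimple L G →
    Max Ω G → Red (pts L G) (P092A1.lie (pts L G)) ∧ Max Ω (pts L G) ∧ Y (pts L G) = Y G

/-- a maximal torus splits over a separable extension -/
def MAXS : Prop :=
  ∀ (F Ω : Type) [NontriviallyNormedField F] [ProperSpace F] [IsUltrametricDist F]
    [NontriviallyNormedField Ω] [NormedAlgebra F Ω] [IsUltrametricDist Ω] [IsAlgClosed Ω]
    [Algebra.IsAlgebraic F Ω] (n : ℕ) (G : Subgroup (GL (Fin n) Ω)), AbsSimple F G →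
    ∃ c : GL (Fin n) Ω, (∀ i j, IsSeparable F (c.1 i j)) ∧ Max Ω (cj c G)

/-- the maximal torus is not trivial -/
def YNE : Prop :=
  ∀ (F Ω : Type) [Field F] [NontriviallyNormedField Ω] [Algebra F Ω] [IsAlgClosed Ω] (n : ℕ)
    (G : Subgroup (GL (Fin n) Ω)), AbsSimple F G → Max Ω G → Y G ≠ ⊥

/-- a split group has a pinning -/
def RK1 : Prop :=
  ∀ (F Ω : Type) [NontriviallyNormedField F] [ProperSpace F] [IsUltrametricDist F]
    [NontriviallyNormedField Ω] [NormedAlgebra F Ω] [IsUltrametricDist Ω] [IsAlgClosed Ω]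
    [Algebra.IsAlgebraic F Ω] (n : ℕ) (G : Subgroup (GL (Fin n) Ω)), AbsSimple F G → Max Ω G →
    Y G ≠ ⊥ → ∃ (R : RS) (S : Pn F n R), S.Ok ∧
      van (S.Gp : Set (GL (Fin n) F)) = van (pts F G : Set (GL (Fin n) F))

/-- existence of the simply connected Chevalley groups -/
def EXC : Prop :=
  ∀ R : RS, R.Ok → ∃ (D : Chev) (ε : Fin D.r ≃ Fin R.r), SC D ∧ ∀ i j, R.A (ε i) (ε j) = D.A i j

/-- the isogeny theorem -/
def HOM : Prop :=
  ∀ (F : Type) [Field F] [Infinite F] (n : ℕ) (R : RS) (S : Pn F n R), S.Ok →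
    ∀ (D : Chev) (ε : Fin D.r ≃ Fin R.r), SC D → (∀ i j, R.A (ε i) (ε j) = D.A i j) →
    ∃ ψ : D.grp F →* GL (Fin n) F, S.Pin ε ψ

/-- the polynomial left inverse modulo the centre -/
def PI : Prop :=
  ∀ (F : Type) [Field F] [Infinite F] (n : ℕ) (R : RS) (S : Pn F n R), S.Ok →
    ∀ (D : Chev) (ε : Fin D.r ≃ Fin R.r), SC D → (∀ i j, R.A (ε i) (ε j) = D.A i j) →
    ∀ ψ : D.grp F →* GL (Fin n) F, S.Pin ε ψ → ∀ p q : JJ D, ∃ w : Pl n F, ∀ g,
      ev (ψ g).1 w = Adm D g.1.1 p q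

/-- the image of a connected group is closed -/
def IMG : Prop :=
  ∀ (Ω : Type) [Field Ω] [IsAlgClosed Ω] (m : ℕ) (H : Subgroup (GL (Fin m) Ω)),
    ZCl (H : Set (GL (Fin m) Ω)) → (∀ g ∈ H, g.1.det = 1) →
    (van (H : Set (GL (Fin m) Ω))).IsPrime → ∀ (J : Type) [Fintype J] [DecidableEq J]
    (ρ : H →* Matrix J J Ω), (∀ a b, ∃ p : Pl m Ω, ∀ g : H, ρ g a b = ev g.1.1 p) →
    ∀ x : Matrix J J Ω, IsUnit x → (∀ q : MvPolynomial (J × J) Ω,
      (∀ g : H, MvPolynomial.eval (fun e => ρ g e.1 e.2) q = 0) →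
      MvPolynomial.eval (fun e => x e.1 e.2) q = 0) → ∃ g, ρ g = x

/-- Chevalley groups are irreducible -/
def PRM : Prop :=
  ∀ (D : Chev) (F : Type) [Field F] [Infinite F], (van (D.grp F : Set (GL (Fin D.n) F))).IsPrime

/-- conjugation on the blocks -/
def ADM : Prop :=
  ∀ (D : Chev) (F : Type) [Field F] [Infinite F],
    (∀ g h : D.grp F, Adm D (g * h).1.1 = Adm D g.1.1 * Adm D h.1.1) ∧
    Adm D (1 : D.Mat F) = 1 ∧ (∃ g : D.grp F, Adm D g.1.1 ≠ 1) ∧
    {g : D.grp F | Adm D g.1.1 = 1}.Finite ∧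
    ∀ (A : Type) [CommRing A] [Algebra F A] (g h : GL (Fin D.n) A), Pt (D.grp F) g →
      Pt (D.grp F) h → Adm D g.1 = 1 → g * h = h * g

/-- specialisation of the certificate -/
def SPEC : Prop :=
  ∀ (k K Ω F : Type) [Field k] [Field K] [Field Ω] [Field F] [Infinite k] [Algebra k K]
    [IsSepClosed K] [Algebra K Ω] [Algebra k Ω] [IsScalarTower k K Ω] [Algebra k F],
    P011IS.Sepx k F → ∀ (n : ℕ) (G : Subgroup (GL (Fin n) Ω)), AbsSimple k G → ∀ D : Chev, SC D →
    C0 ((P092GV.vanish k G).map (MvPolynomial.map (algebraMap k F))) D → C1 K G D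

/-- the central isogeny -/
def FA : Prop :=
  ∀ (k K Ω : Type) [Field k] [Field K] [Field Ω] [IsAlgClosed Ω] [Algebra K Ω] [Algebra k Ω]
    (n : ℕ) (G : Subgroup (GL (Fin n) Ω)), AbsSimple k G → ∀ D : Chev, SC D → C1 K G D →
    ∃ (ψ : D.grp Ω →* G) (P : Mt n (Pl D.n K)), (∀ g, (ψ g).1.1 = ap P g.1.1) ∧
      CIso ψ (P.map (MvPolynomial.map (algebraMap K Ω)))

/-- descent to the separable closure -/
def FB : Prop :=
  ∀ (k K Ω : Type) [Field k] [Field K] [Field Ω] [Infinite K] [Algebra k K] [Algebra K Ω]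
    [Algebra k Ω] [IsScalarTower k K Ω] (n : ℕ) (G : Subgroup (GL (Fin n) Ω)), AbsSimple k G →
    ∀ D : Chev, SC D → ∀ (φ : D.grp Ω ≃* G) (P : Mt n (Pl D.n K)),
    (∀ g, (φ g).1.1 = ap P g.1.1) → Pol φ.symm →
    (∃ φ' : pts K G ≃* D.grp K, Form k φ') ∧ ∀ p, Van k (pts K G) p ↔ Van k G p

/-- the conclusion depends only on the equations over `k` -/
def MPT : Prop :=
  ∀ (k K Ω : Type) [Field k] [Field K] [Field Ω] [Algebra k K] [Algebra k Ω] (n : ℕ)
    (G : Subgroup (GL (Fin n) K)) (G' : Subgroup (GL (Fin n) Ω)),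
    (∀ p, Van k G p ↔ Van k G' p) → MPG k G → MPG k G'

end Vale.Agent.P011I
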